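import Vale.Agent.P015B.Sieve

namespace Vale.Agent.P015B

open Finset Real

theorem drift {n D : ℕ} (x : ℕ → ℤ) (h : ∀ j < n, |x (j + 1) - x j| ≤ D) (j i : ℕ)
    (hi : j + i ≤ n) : |x (j + i) - x j| ≤ D * i := by
  induction i with
  | zero => simp
  | succ i ih =>
    have h1 := ih (by omega)
    have h2 := h (j + i) (by omega)
    have h3 := abs_sub_le (x (j + i + 1)) (x (j + i)) (x j)
    rw [← add_assoc]
    push_cast
    linarith

theorem drift' {n D : ℕ} (x : ℕ → ℤ) (h : ∀ j < n, |x (j + 1) - x j| ≤ D) {j l M : ℕ}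
    (hj : j ≤ n) (hl : l ≤ n) (h1 : j ≤ l + M) (h2 : l ≤ j + M) : |x j - x l| ≤ D * M := by
  have hD : (0 : ℤ) ≤ D := Int.natCast_nonneg D
  rcases le_total j l with h3 | h3
  · obtain ⟨i, rfl⟩ := Nat.exists_eq_add_of_le h3
    have h4 := drift x h j i hl
    have h5 : (i : ℤ) ≤ M := by exact_mod_cast (by omega : i ≤ M)
    rw [abs_sub_comm]
    nlinarith
  · obtain ⟨i, rfl⟩ := Nat.exists_eq_add_of_le h3
    have h4 := drift x h l i hj
    have h5 : (i : ℤ) ≤ M := by exact_mod_cast (by omega : i ≤ M)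
    nlinarith

theorem norm_eq (z : GaussianInt) : z.norm = z.re ^ 2 + z.im ^ 2 := by
  rw [Zsqrtd.norm_def]; ring

theorem small_card {ι : Type*} (J : Finset ι) (z : ι → GaussianInt) (hz : Set.InjOn z J) (R : ℕ) :
    (J.filter fun j => (z j).norm ≤ (R : ℤ) ^ 2).card ≤ (2 * R + 1) ^ 2 := by
  have h1 : ((Icc (-(R : ℤ)) R) ×ˢ (Icc (-(R : ℤ)) R)).card = (2 * R + 1) ^ 2 := by
    rw [card_product, Int.card_Icc]
    have : ((R : ℤ) + 1 - -(R : ℤ)).toNat = 2 * R + 1 := by omega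
    rw [this, sq]
  rw [← h1]
  refine card_le_card_of_injOn (fun j => ((z j).re, (z j).im)) (fun j hj => ?_) ?_
  · have h2 := (mem_filter.1 hj).2
    rw [norm_eq] at h2
    have hR : (0 : ℤ) ≤ R := Int.natCast_nonneg R
    have h3 : |(z j).re| ≤ R := abs_le_of_sq_le_sq' (by nlinarith [sq_nonneg (z j).im]) hR |> abs_le.2
    have h4 : |(z j).im| ≤ R := abs_le_of_sq_le_sq' (by nlinarith [sq_nonneg (z j).re]) hR |> abs_le.2
    simp only [coe_product, Set.mem_prod, coe_Icc, Set.mem_Icc]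
    exact ⟨abs_le.1 h3, abs_le.1 h4⟩
  · intro j hj l hl h
    refine hz (mem_filter.1 hj).1 (mem_filter.1 hl).1 ?_
    simp only [Prod.mk.injEq] at h
    exact Zsqrtd.ext h.1 h.2

/-- a good `k`-step path -/
def Good (D k R : ℕ) (z : ℕ → GaussianInt) : Prop :=
  Set.InjOn z (Set.Iic k) ∧ (∀ i < k, Irreducible (z i) ∧ (R : ℤ) ^ 2 < (z i).norm) ∧
    (∀ j < k, |(z (j + 1)).re - (z j).re| ≤ D) ∧ ∀ j < k, |(z (j + 1)).im - (z j).im| ≤ D

/-- one fibre: paths with the same steps and the same transversal coordinate -/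
theorem fibre {ι : Type*} {S : ℝ} {D k R N q : ℕ} {a : ℤ} (T : Finset ℕ) (v : ℕ → ℝ)
    (hT : ∀ p ∈ T, p.Prime ∧ p % 4 = 1 ∧ 2 * (D * k) ^ 2 < p ∧ 0 ≤ v p ∧ v p ≤ 1 / p)
    (hS : S ≤ ∑ p ∈ T, v p) (hL : 2 * k * ∑ p ∈ T, log p * v p ≤ log R) (hR : 2 ≤ R)
    (hD : 1 ≤ D) (hN : R ^ 2 ≤ 2 * N) (hq : 1 ≤ q) (hqa : IsCoprime (q : ℤ) a)
    (G : Finset ι) (z : ι → ℕ → GaussianInt) (hinj : Set.InjOn (fun j => z j 0) G)
    (hG : ∀ j ∈ G, Good D k R (z j))
    (hx : ∀ j ∈ G, ∀ l ∈ G, |(z j 0).re - (z l 0).re| ≤ q * N)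
    (ht : ∀ j ∈ G, ∀ l ∈ G, q * (z j 0).im - a * (z j 0).re = q * (z l 0).im - a * (z l 0).re)
    (hs : ∀ j ∈ G, ∀ l ∈ G, ∀ i < k, z j (i + 1) - z j i = z l (i + 1) - z l i) :
    (G.card : ℝ) * exp (k * S / 2) ≤ 40 * (2 * N : ℕ) := by
  classical
  rcases G.eq_empty_or_nonempty with rfl | ⟨l, hl⟩
  · simp only [card_empty, Nat.cast_zero, zero_mul]; positivity
  set w : GaussianInt := ⟨q, a⟩ with hw
  have hq0 : (0 : ℤ) < q := by exact_mod_cast hq
  have hoff : ∀ j ∈ G, ∀ i ≤ k, z j i - z j 0 = z l i - z l 0 := by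
    intro j hj i
    induction i with
    | zero => simp
    | succ i ih =>
      intro hi
      have h1 := ih (by omega)
      have h2 := hs j hj l hl i (by omega)
      linear_combination h1 + h2
  have hm : ∀ j : ι, ∃ u : ℕ, j ∈ G → u ≤ 2 * N ∧
      z j 0 = z l 0 - (N : GaussianInt) * w + (u : GaussianInt) * w := by
    intro j
    by_cases hj : j ∈ G
    swap
    · exact ⟨0, fun h => absurd h hj⟩
    have h1 := ht j hj l hl
    have h2 : (q : ℤ) ∣ a * ((z j 0).re - (z l 0).re) :=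
      ⟨(z j 0).im - (z l 0).im, by linear_combination -h1⟩
    obtain ⟨m, hm⟩ := hqa.dvd_of_dvd_mul_left h2
    have h3 : (z j 0).im - (z l 0).im = a * m := by
      refine mul_left_cancel₀ hq0.ne' ?_
      linear_combination h1 + a * hm
    have h4 := hx j hj l hl
    rw [hm, abs_mul, abs_of_pos hq0] at h4
    have h5 : |m| ≤ N := le_of_mul_le_mul_left h4 hq0
    obtain ⟨h6, h7⟩ := abs_le.1 h5
    refine ⟨(m + N).toNat, fun _ => ⟨by omega, ?_⟩⟩
    have h8 : (((m + N).toNat : ℕ) : ℤ) = m + N := Int.toNat_of_nonneg (by linarith)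
    refine Zsqrtd.ext ?_ ?_
    · simp only [hw, Zsqrtd.re_add, Zsqrtd.re_sub, Zsqrtd.re_mul, Zsqrtd.re_natCast,
        Zsqrtd.im_natCast, h8]
      linear_combination hm
    · simp only [hw, Zsqrtd.im_add, Zsqrtd.im_sub, Zsqrtd.im_mul, Zsqrtd.re_natCast,
        Zsqrtd.im_natCast, h8]
      linear_combination h3
  choose u hu using hm
  have hcard : (G.image u).card = G.card := by
    refine card_image_of_injOn fun j hj j' hj' h => hinj hj hj' ?_
    show z j 0 = z j' 0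
    rw [(hu j hj).2, (hu j' hj').2, h]
  rw [← hcard]
  obtain ⟨g1, -, g3, g4⟩ := hG l hl
  refine pattern (y := 2 * (D * k) ^ 2) (w := w) T v hT hS hL hR ?_ hN _ ?_ hqa
    (fun i => z l i - (N : GaussianInt) * w) ?_ ?_
  · calc k ≤ D * k := Nat.le_mul_of_pos_left k hD
      _ ≤ (D * k) ^ 2 := Nat.le_self_pow (by norm_num) _
      _ ≤ 2 * (D * k) ^ 2 := by omega
  · intro b hb
    obtain ⟨j, hj, rfl⟩ := mem_image.1 hb
    exact (hu j hj).1
  · intro i hi i' hi' hne
    constructor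
    · intro h
      exact hne (g1 hi.le hi'.le (sub_left_injective h))
    · rw [sub_sub_sub_cancel_right, norm_eq]
      have h1 := drift' (fun j => (z l j).re) g3 (M := k) (j := i) (l := i')
        (by omega) (by omega) (by omega) (by omega)
      have h2 := drift' (fun j => (z l j).im) g4 (M := k) (j := i) (l := i')
        (by omega) (by omega) (by omega) (by omega)
      have h3 := sq_le_sq' (abs_le.1 h1).1 (abs_le.1 h1).2
      have h4 := sq_le_sq' (abs_le.1 h2).1 (abs_le.1 h2).2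
      simp only [Zsqrtd.re_sub, Zsqrtd.im_sub]
      push_cast
      linarith
  · intro b hb i hi
    obtain ⟨j, hj, rfl⟩ := mem_image.1 hb
    have h1 : z l i - (N : GaussianInt) * w + (u j : GaussianInt) * w = z j i := by
      linear_combination -(hoff j hj i hi.le) - (hu j hj).2
    rw [h1]
    exact (hG j hj).2.1 i hi

/-- counting good paths whose starts lie on few lattice lines -/
theorem count {ι : Type*} {S : ℝ} {D k R N q : ℕ} {a : ℤ} (T : Finset ℕ) (v : ℕ → ℝ)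
    (hT : ∀ p ∈ T, p.Prime ∧ p % 4 = 1 ∧ 2 * (D * k) ^ 2 < p ∧ 0 ≤ v p ∧ v p ≤ 1 / p)
    (hS : S ≤ ∑ p ∈ T, v p) (hL : 2 * k * ∑ p ∈ T, log p * v p ≤ log R) (hR : 2 ≤ R)
    (hD : 1 ≤ D) (hN : R ^ 2 ≤ 2 * N) (hq : 1 ≤ q) (hqa : IsCoprime (q : ℤ) a)
    (G : Finset ι) (z : ι → ℕ → GaussianInt) (hinj : Set.InjOn (fun j => z j 0) G)
    (hG : ∀ j ∈ G, Good D k R (z j))
    (hx : ∀ j ∈ G, ∀ l ∈ G, |(z j 0).re - (z l 0).re| ≤ q * N)
    (t0 : ℤ) (B : ℕ) (ht : ∀ j ∈ G, |q * (z j 0).im - a * (z j 0).re - t0| ≤ B) :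
    (G.card : ℝ) * exp (k * S / 2) ≤ (2 * B + 1) * ((2 * D + 1) ^ 2) ^ k * (80 * N) := by
  classical
  set I : Finset ℤ := Icc (-(D : ℤ)) D with hI
  set Sh : Finset (ℤ × (Fin k → ℤ × ℤ)) := Icc (t0 - B) (t0 + B) ×ˢ
    Fintype.piFinset fun _ => I ×ˢ I with hSh
  set f : ι → ℤ × (Fin k → ℤ × ℤ) := fun j => (q * (z j 0).im - a * (z j 0).re, fun i =>
    ((z j (i + 1)).re - (z j i).re, (z j (i + 1)).im - (z j i).im)) with hf
  have hmap : ∀ j ∈ G, f j ∈ Sh := by
    intro j hj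
    refine mem_product.2 ⟨?_, Fintype.mem_piFinset.2 fun i => mem_product.2 ⟨?_, ?_⟩⟩
    · obtain ⟨h12, h13⟩ := abs_le.1 (ht j hj)
      exact mem_Icc.2 ⟨by simp only [hf]; linarith, by simp only [hf]; linarith⟩
    · exact mem_Icc.2 (abs_le.1 ((hG j hj).2.2.1 i i.2))
    · exact mem_Icc.2 (abs_le.1 ((hG j hj).2.2.2 i i.2))
  have hShc : Sh.card = (2 * B + 1) * ((2 * D + 1) ^ 2) ^ k := by
    have h1 : I.card = 2 * D + 1 := by
      rw [hI, Int.card_Icc]; omega
    have h2 : (t0 + B + 1 - (t0 - B)).toNat = 2 * B + 1 := by omega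
    rw [hSh, card_product, Int.card_Icc, h2, Fintype.card_piFinset, prod_const, card_product, h1,
      card_univ, Fintype.card_fin, sq]
  have hfib : ∀ b ∈ Sh, ((G.filter fun j => f j = b).card : ℝ) * exp (k * S / 2) ≤
      40 * (2 * N : ℕ) := by
    intro b _
    refine fibre T v hT hS hL hR hD hN hq hqa _ z (hinj.mono (coe_subset.2 (filter_subset _ _)))
      (fun j hj => hG j (mem_filter.1 hj).1)
      (fun j hj l hl => hx j (mem_filter.1 hj).1 l (mem_filter.1 hl).1) ?_ ?_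
    · intro j hj l hl
      have h1 : f j = f l := (mem_filter.1 hj).2.trans (mem_filter.1 hl).2.symm
      exact congrArg Prod.fst h1
    · intro j hj l hl i hi
      have h1 : f j = f l := (mem_filter.1 hj).2.trans (mem_filter.1 hl).2.symm
      have h2 := congrFun (congrArg Prod.snd h1) ⟨i, hi⟩
      simp only [hf, Prod.mk.injEq] at h2
      exact Zsqrtd.ext (by simpa using h2.1) (by simpa using h2.2)
  have h1 := sum_le_sum hfib
  rw [← sum_mul, ← Nat.cast_sum, ← card_eq_sum_card_fiberwise hmap, sum_const, nsmul_eq_mul,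
    hShc] at h1
  push_cast at h1
  linarith

/-- the counting inequality for a path in a strip -/
theorem core {S : ℝ} {D k R Q n : ℕ} (T : Finset ℕ) (v : ℕ → ℝ)
    (hT : ∀ p ∈ T, p.Prime ∧ p % 4 = 1 ∧ 2 * (D * k) ^ 2 < p ∧ 0 ≤ v p ∧ v p ≤ 1 / p)
    (hS : S ≤ ∑ p ∈ T, v p) (hL : 2 * k * ∑ p ∈ T, log p * v p ≤ log R) (hR : 2 ≤ R)
    (hD : 1 ≤ D) (hQ : R ^ 2 ≤ Q) (hQ2 : 2 * (k * (2 * R + 1) ^ 2) ≤ Q)
    (hn : Q * Q + k ≤ n) (z : ℕ → GaussianInt) (hinj : Set.InjOn z (Set.Iic n))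
    (hirr : ∀ j ≤ n, Irreducible (z j))
    (hre : ∀ j < n, |(z (j + 1)).re - (z j).re| ≤ D)
    (him : ∀ j < n, |(z (j + 1)).im - (z j).im| ≤ D)
    (θ s W : ℝ) (hW : ∀ j ≤ n, |((z j).im : ℝ) - θ * (z j).re - s| ≤ W) :
    exp (k * S / 2) ≤ 160 * D * (4 * W + 2 * D + 3) * ((2 * D + 1) ^ 2) ^ k := by
  classical
  have hQ0 : 0 < Q := lt_of_lt_of_le (by positivity) hQ
  have hW0 : 0 ≤ W := le_trans (abs_nonneg _) (hW 0 (Nat.zero_le n))
  obtain ⟨ρ, hρ, hρQ⟩ := Real.exists_rat_abs_sub_le_and_den_le θ hQ0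
  have hρd := Rat.cast_def (K := ℝ) ρ
  set q : ℕ := ρ.den with hq
  set a : ℤ := ρ.num with ha
  have hq1 : 1 ≤ q := ρ.pos
  have hqr : (0 : ℝ) < q := by exact_mod_cast hq1
  have hQr : (0 : ℝ) < Q := by exact_mod_cast hQ0
  have hqa : IsCoprime (q : ℤ) a := by
    rw [Int.isCoprime_iff_gcd_eq_one, Int.gcd_comm]
    exact ρ.reduced
  have hθ : |q * θ - a| ≤ 1 / Q := by
    have h1 : (q : ℝ) * θ - a = q * (θ - ρ) := by
      rw [hρd]; field_simp
    rw [h1, abs_mul, abs_of_pos hqr]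
    have h2 := mul_le_mul_of_nonneg_left hρ hqr.le
    have h3 : (q : ℝ) * (1 / ((Q + 1) * q)) = 1 / (Q + 1) := by field_simp
    have h4 : (1 : ℝ) / (Q + 1) ≤ 1 / Q := one_div_le_one_div_of_le hQr (by linarith)
    linarith
  have hM : q * Q ≤ Q * Q := Nat.mul_le_mul_right Q hρQ
  have hM' : Q ≤ q * Q := Nat.le_mul_of_pos_left Q hq1
  set G : Finset ℕ := (range (q * Q)).filter fun j => ∀ i < k, (R : ℤ) ^ 2 < (z (j + i)).norm
    with hG
  have hGc : q * Q ≤ 2 * G.card := by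
    have h1 := card_filter_add_card_filter_not (s := range (q * Q))
      (fun j => ∀ i < k, (R : ℤ) ^ 2 < (z (j + i)).norm)
    have h2 : ((range (q * Q)).filter fun j => ¬ ∀ i < k, (R : ℤ) ^ 2 < (z (j + i)).norm) ⊆
        (range k).biUnion fun i => (range (q * Q)).filter fun j => (z (j + i)).norm ≤ (R : ℤ) ^ 2 := by
      intro j hj
      obtain ⟨h3, h4⟩ := mem_filter.1 hj
      push Not at h4
      obtain ⟨i, hi, h5⟩ := h4
      exact mem_biUnion.2 ⟨i, mem_range.2 hi, mem_filter.2 ⟨h3, h5⟩⟩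
    have h3 := card_biUnion_le_card_mul (range k) (fun i => (range (q * Q)).filter fun j =>
      (z (j + i)).norm ≤ (R : ℤ) ^ 2) ((2 * R + 1) ^ 2) fun i hi => by
        refine small_card (range (q * Q)) (fun j => z (j + i)) (fun j hj l hl h => ?_) R
        have h4 := mem_range.1 hi
        have h5 := mem_range.1 (mem_coe.1 hj)
        have h6 := mem_range.1 (mem_coe.1 hl)
        have := hinj (by simp only [Set.mem_Iic]; omega) (by simp only [Set.mem_Iic]; omega) h
        omega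
    have h4 := card_le_card h2
    rw [card_range] at h1 h3
    rw [← hG] at h1
    omega
  have hGm : ∀ j ∈ G, j < q * Q := fun j hj => mem_range.1 (mem_filter.1 hj).1
  set B : ℕ := ⌈2 * W⌉₊ + D with hB
  have h1 := count (N := D * Q) T v hT hS hL hR hD
    (le_trans hQ (by nlinarith)) hq1 hqa G (fun j i => z (j + i))
    (fun j hj l hl h => by
      have h5 := hGm j hj
      have h6 := hGm l hl
      exact hinj (by simp only [Set.mem_Iic]; omega) (by simp only [Set.mem_Iic]; omega) h)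
    (fun j hj => by
      have h5 := hGm j hj
      refine ⟨fun i hi i' hi' h => ?_, fun i hi => ⟨hirr _ (by omega), (mem_filter.1 hj).2 i hi⟩,
        fun i hi => hre (j + i) (by omega), fun i hi => him (j + i) (by omega)⟩
      simp only [Set.mem_Iic] at hi hi'
      have := hinj (by simp only [Set.mem_Iic]; omega) (by simp only [Set.mem_Iic]; omega) h
      omega)
    (fun j hj l hl => by
      have h5 := hGm j hj
      have h6 := hGm l hl
      have h3 := drift' (fun j => (z j).re) hre (M := q * Q) (j := j) (l := l)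
        (by omega) (by omega) (by omega) (by omega)
      push_cast at h3 ⊢
      simp only [add_zero]
      linarith)
    (q * (z 0).im - a * (z 0).re) (q * B) (fun j hj => by
      have hj1 := hGm j hj
      have h1 := hW j (by omega)
      have h2 := hW 0 (Nat.zero_le n)
      have h3 := drift' (fun j => (z j).re) hre (M := q * Q) (j := j) (l := 0)
        (by omega) (by omega) (by omega) (by omega)
      have h4 : |((z j).re : ℝ) - (z 0).re| ≤ D * (q * Q) := by exact_mod_cast h3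
      have h5 : ((q * (z j).im - a * (z j).re - (q * (z 0).im - a * (z 0).re) : ℤ) : ℝ) =
          q * ((((z j).im : ℝ) - θ * (z j).re - s) -
          (((z 0).im : ℝ) - θ * (z 0).re - s)) + (q * θ - a) * (((z j).re : ℝ) - (z 0).re) := by
        push_cast; ring
      have h6 : |(q * θ - a) * (((z j).re : ℝ) - (z 0).re)| ≤ 1 / Q * (D * (q * Q)) := by
        rw [abs_mul]
        exact mul_le_mul hθ h4 (abs_nonneg _) (by positivity)
      have h7 : (1 : ℝ) / Q * (D * (q * Q)) = q * D := by field_simp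
      have h8 : |(q : ℝ) * ((((z j).im : ℝ) - θ * (z j).re - s) -
          (((z 0).im : ℝ) - θ * (z 0).re - s))| ≤ q * (2 * W) := by
        rw [abs_mul, abs_of_pos hqr]
        refine mul_le_mul_of_nonneg_left (le_trans (abs_sub _ _) (by linarith)) hqr.le
      have h9 : 2 * W ≤ ⌈2 * W⌉₊ := Nat.le_ceil _
      have h10 : |((q * (z j).im - a * (z j).re - (q * (z 0).im - a * (z 0).re) : ℤ) : ℝ)| ≤
          ((q * B : ℕ) : ℝ) := by
        rw [h5]
        refine le_trans (abs_add_le _ _) ?_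
        have := mul_le_mul_of_nonneg_left h9 hqr.le
        simp only [hB]
        push_cast
        linarith
      simp only [add_zero]
      exact_mod_cast h10)
  have h2 : (q : ℝ) * Q ≤ 2 * G.card := by exact_mod_cast hGc
  have hE := Real.exp_pos (k * S / 2)
  have h3 : (B : ℝ) ≤ 2 * W + 1 + D := by
    have := (Nat.ceil_lt_add_one (by linarith : 0 ≤ 2 * W)).le
    simp only [hB]; push_cast; linarith
  have h4 : (2 * ((q : ℝ) * B) + 1) ≤ q * (4 * W + 2 * D + 3) := by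
    have h5 : (1 : ℝ) ≤ q := by exact_mod_cast hq1
    nlinarith
  push_cast at h1
  set P : ℝ := ((2 * (D : ℝ) + 1) ^ 2) ^ k with hP
  have hP0 : 0 < P := by positivity
  have h5 : (2 * ((q : ℝ) * B) + 1) * P * (80 * (D * Q)) ≤
      q * (4 * W + 2 * D + 3) * P * (80 * (D * Q)) := by gcongr
  have h6 := mul_le_mul_of_nonneg_right h2 hE.le
  have h7 : (q : ℝ) * Q * exp (k * S / 2) ≤ q * Q * (160 * D * (4 * W + 2 * D + 3) * P) := by
    linarith
  exact le_of_mul_le_mul_left h7 (by positivity)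

end Vale.Agent.P015B
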