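import Mathlib

namespace Vale.Agent.P015B

/-- The graph `G_D`: vertices are the Gaussian primes (irreducible elements of `ℤ[i]`), two distinct
ones being adjacent when their Euclidean distance is at most `D`. -/
def primeGraph (D : ℝ) : SimpleGraph {z : GaussianInt // Irreducible z} where
  Adj z w := z ≠ w ∧ ‖(z.1 : ℂ) - (w.1 : ℂ)‖ ≤ D
  symm := ⟨fun _ _ h => ⟨h.1.symm, by rw [norm_sub_rev]; exact h.2⟩⟩
  loopless := ⟨fun _ h => h.1 rfl⟩

end Vale.Agent.P015B
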