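import Vale.Agent.P015B.Main
import Vale.Agent.P015B.Defs

namespace Vale.Agent.P015B

open Finset Real Filter

theorem step_le {D : ℝ} {z w : GaussianInt} (h : ‖(z : ℂ) - (w : ℂ)‖ ≤ D) :
    |z.re - w.re| ≤ (⌈D⌉₊ : ℕ) ∧ |z.im - w.im| ≤ (⌈D⌉₊ : ℕ) := by
  have h1 := Complex.abs_re_le_norm ((z : ℂ) - (w : ℂ))
  have h2 := Complex.abs_im_le_norm ((z : ℂ) - (w : ℂ))
  rw [Complex.sub_re, ← GaussianInt.intCast_re, ← GaussianInt.intCast_re] at h1
  rw [Complex.sub_im, ← GaussianInt.intCast_im, ← GaussianInt.intCast_im] at h2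
  have h3 : D ≤ ⌈D⌉₊ := Nat.le_ceil D
  constructor
  · exact_mod_cast (by linarith : |(z.re : ℝ) - w.re| ≤ (⌈D⌉₊ : ℝ))
  · exact_mod_cast (by linarith : |(z.im : ℝ) - w.im| ≤ (⌈D⌉₊ : ℝ))

theorem irr_swap {z : GaussianInt} (hz : Irreducible z) :
    Irreducible (⟨z.im, z.re⟩ : GaussianInt) := by
  have hz' : Irreducible (star z) := by
    have : Irreducible ((starRingAut : RingAut GaussianInt) z) :=
      (MulEquiv.irreducible_iff (starRingAut : RingAut GaussianInt)).2 hz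
    simpa using this
  have hu : IsUnit (⟨0, 1⟩ : GaussianInt) := by
    rw [← Zsqrtd.norm_eq_one_iff' (by norm_num)]; rfl
  have h : (⟨z.im, z.re⟩ : GaussianInt) = ⟨0, 1⟩ * star z := by
    refine Zsqrtd.ext ?_ ?_ <;> simp
  rw [h]
  exact (irreducible_isUnit_mul hu).2 hz'

theorem dist_line (z a u : ℂ) (hu : ‖u‖ = 1) :
    |u.re * (z.im - a.im) - u.im * (z.re - a.re)| ≤
      Metric.infDist z (Set.range fun t : ℝ => a + t * u) := by
  rw [Metric.le_infDist (Set.range_nonempty _)]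
  rintro _ ⟨t, rfl⟩
  have h1 := Complex.abs_im_le_norm ((starRingEnd ℂ) u * (z - (a + t * u)))
  rw [norm_mul, Complex.norm_conj, hu, one_mul, ← dist_eq_norm] at h1
  refine le_trans (le_of_eq ?_) h1
  congr 1
  simp
  ring

theorem div_bound {e b W : ℝ} (hb : 1 / 2 ≤ |b|) (h : |e| ≤ W) : |e / b| ≤ 2 * W := by
  rw [abs_div, div_le_iff₀ (by linarith)]
  nlinarith [abs_nonneg e]

theorem partA {D : ℝ} (hD : 0 < D) : ∃ c : ℝ, 0 < c ∧ ∀ᶠ T : ℕ in atTop,
    ∀ z : ℕ → GaussianInt, (∀ j ≤ T, Irreducible (z j)) → Set.InjOn z (Set.Iic T) →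
    (∀ j < T, ‖(z (j + 1) : ℂ) - (z j : ℂ)‖ ≤ D) → ∀ a u : ℂ, ‖u‖ = 1 →
    ∃ j ≤ T, exp (c * log T / log (log T)) <
      Metric.infDist (z j : ℂ) (Set.range fun t : ℝ => a + t * u) := by
  obtain ⟨c, hc, h⟩ := stripA ⌈D⌉₊ (Nat.ceil_pos.2 hD)
  refine ⟨c, hc, ?_⟩
  filter_upwards [tendsto_natCast_atTop_atTop.eventually h] with T hT z hirr hinj hst a u hu
  by_contra hcon
  push Not at hcon
  have h1 : ∀ j ≤ T, |u.re * ((z j).im - a.im) - u.im * ((z j).re - a.re)| ≤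
      exp (c * log T / log (log T)) := by
    intro j hj
    rw [GaussianInt.intCast_re, GaussianInt.intCast_im]
    exact le_trans (dist_line _ a u hu) (hcon j hj)
  have h2 : u.re ^ 2 + u.im ^ 2 = 1 := by
    have := Complex.sq_norm u
    rw [hu, Complex.normSq_apply] at this
    linarith
  by_cases h3 : 1 / 2 ≤ |u.re|
  · have h4 : u.re ≠ 0 := by
      intro h5; rw [h5, abs_zero] at h3; linarith
    refine hT T le_rfl z hinj hirr (fun j hj => (step_le (hst j hj)).1)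
      (fun j hj => (step_le (hst j hj)).2) (u.im / u.re) (a.im - u.im / u.re * a.re) fun j hj => ?_
    refine le_trans (le_of_eq ?_) (div_bound h3 (h1 j hj))
    congr 1
    field_simp
    ring
  · have h5 : 1 / 2 ≤ |u.im| := by
      by_contra h6
      push Not at h3 h6
      have a1 := sq_abs u.re
      have a2 := sq_abs u.im
      nlinarith [abs_nonneg u.re, abs_nonneg u.im]
    have h4 : u.im ≠ 0 := by
      intro h6; rw [h6, abs_zero] at h5; linarith
    refine hT T le_rfl (fun j => ⟨(z j).im, (z j).re⟩) (fun j hj l hl hjl => hinj hj hl ?_)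
      (fun j hj => irr_swap (hirr j hj)) (fun j hj => (step_le (hst j hj)).2)
      (fun j hj => (step_le (hst j hj)).1) (u.re / u.im) (a.re - u.re / u.im * a.im) fun j hj => ?_
    · simp only [Zsqrtd.mk.injEq] at hjl
      exact Zsqrtd.ext hjl.2 hjl.1
    · refine le_trans (le_of_eq ?_) (div_bound h5 (h1 j hj))
      rw [← abs_neg]
      congr 1
      field_simp
      ring

theorem ball_finite (r : ℝ) : {w : GaussianInt | ‖(w : ℂ)‖ ≤ r}.Finite := by
  refine Set.Finite.of_finite_image (f := fun w => (w.re, w.im)) ?_ ?_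
  · refine ((Set.finite_Icc (-(⌈r⌉₊ : ℤ)) ⌈r⌉₊).prod (Set.finite_Icc (-(⌈r⌉₊ : ℤ)) ⌈r⌉₊)).subset ?_
    rintro _ ⟨w, hw, rfl⟩
    have h := step_le (D := r) (z := w) (w := 0) (by simpa using hw)
    simp only [Zsqrtd.re_zero, Zsqrtd.im_zero, sub_zero] at h
    exact ⟨abs_le.1 h.1, abs_le.1 h.2⟩
  · intro w _ w' _ h
    simp only [Prod.mk.injEq] at h
    exact Zsqrtd.ext h.1 h.2

theorem walk_le {D : ℝ} (x : ℕ → ℂ) {n : ℕ} (h : ∀ j < n, ‖x (j + 1) - x j‖ ≤ D) :
    ∀ i ≤ n, ‖x i - x 0‖ ≤ D * i := by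
  intro i
  induction i with
  | zero => simp
  | succ i ih =>
    intro hi
    have h1 := ih (by omega)
    have h2 := h i (by omega)
    have h3 := norm_sub_le_norm_sub_add_norm_sub (x (i + 1)) (x i) (x 0)
    push_cast
    linarith

theorem partB {D : ℝ} (hD : 0 < D) : ∃ c : ℝ, 0 < c ∧
    ∀ z : ℕ → GaussianInt, (∀ j, Irreducible (z j)) → Function.Injective z →
    (∀ j, ‖(z (j + 1) : ℂ) - (z j : ℂ)‖ ≤ D) → ∀ a u : ℂ, ‖u‖ = 1 →
    ∃ᶠ j : ℕ in atTop, exp (c * log ‖(z j : ℂ)‖ / log (log ‖(z j : ℂ)‖)) <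
      Metric.infDist (z j : ℂ) (Set.range fun t : ℝ => a + t * u) := by
  obtain ⟨c, hc, h⟩ := partA hD
  refine ⟨c / 2, by positivity, fun z hirr hinj hst a u hu => ?_⟩
  by_contra hcon
  rw [Filter.not_frequently] at hcon
  have h1 : ∀ᶠ j : ℕ in atTop, z j ∉ {w : GaussianInt | ‖(w : ℂ)‖ ≤ exp (exp 1)} := by
    rw [← Nat.cofinite_eq_atTop]
    exact hinj.tendsto_cofinite.eventually (ball_finite _).compl_mem_cofinite
  obtain ⟨n0, hn0⟩ := eventually_atTop.1 (hcon.and h1)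
  obtain ⟨T, hT, hT1, hT2⟩ := (h.and ((tendsto_natCast_atTop_atTop (R := ℝ)).eventually
    ((eventually_ge_atTop (D + ‖(z n0 : ℂ)‖)).and (eventually_ge_atTop (exp (exp 1)))))).exists
  obtain ⟨j, hj, h2⟩ := hT (fun j => z (n0 + j)) (fun j _ => hirr _)
    (fun j _ l _ h => by have := hinj h; omega) (fun j _ => hst (n0 + j)) a u hu
  obtain ⟨h3, h4⟩ := hn0 (n0 + j) (by omega)
  simp only [Set.mem_ofPred_eq, not_le] at h4
  have h5 := walk_le (D := D) (fun j => (z (n0 + j) : ℂ)) (n := T) (fun j _ => hst (n0 + j)) j hj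
  simp only [add_zero] at h5
  set r : ℝ := ‖(z (n0 + j) : ℂ)‖ with hr
  have he1 : 1 < exp (1 : ℝ) := Real.one_lt_exp_iff.2 one_pos
  have he2 : 1 < exp (exp (1 : ℝ)) := Real.one_lt_exp_iff.2 (by linarith)
  have h6 : r ≤ (T : ℝ) ^ 2 := by
    have a1 := norm_le_norm_add_norm_sub' (z (n0 + j) : ℂ) (z n0 : ℂ)
    have a2 : (j : ℝ) ≤ T := by exact_mod_cast hj
    have a3 : D * j ≤ D * T := by gcongr
    have a4 := norm_nonneg (z n0 : ℂ)
    nlinarith
  have h7 : exp 1 ≤ log r := (Real.le_log_iff_exp_le (by linarith)).2 h4.le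
  have h8 : exp 1 ≤ log (T : ℝ) := (Real.le_log_iff_exp_le (by linarith)).2 hT2
  have h9 : log r ≤ 2 * log (T : ℝ) := by
    have := Real.log_le_log (by linarith) h6
    rwa [Real.log_pow] at this
  have h10 := Real.log_div_self_antitoneOn (Set.mem_Ici.2 h7)
    (Set.mem_Ici.2 (le_trans h7 h9)) h9
  simp only at h10
  have h11 : log (log (T : ℝ)) ≤ log (2 * log (T : ℝ)) := Real.log_le_log (by linarith) (by linarith)
  have h12 : 0 < log (log (T : ℝ)) := Real.log_pos (by linarith)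
  have h13 : 0 < log (log r) := Real.log_pos (by linarith)
  have h14 : log r * log (log (T : ℝ)) ≤ 2 * log (T : ℝ) * log (log r) := by
    rw [div_le_div_iff₀ (by linarith) (by linarith)] at h10
    have : log r * log (log (T : ℝ)) ≤ log r * log (2 * log (T : ℝ)) := by
      gcongr; linarith
    linarith
  have h15 : c / 2 * log r / log (log r) ≤ c * log T / log (log T) := by
    rw [div_le_div_iff₀ h13 h12]
    nlinarith
  exact h3 (lt_of_le_of_lt (Real.exp_le_exp.2 h15) h2)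

theorem partC {D : ℝ} (hD : 0 < D) : ∃ c : ℝ, 0 < c ∧ ∀ᶠ X : ℝ in atTop,
    (({z : {z : GaussianInt // Irreducible z} | ‖(z.1 : ℂ)‖ ≤ X ∧
      ∃ w, (primeGraph D).Reachable z w ∧ log X ≤ ‖(z.1 : ℂ) - (w.1 : ℂ)‖}.ncard : ℕ) : ℝ) ≤
      X ^ 2 * exp (-(c * log X / log (log X))) := by
  obtain ⟨c, hc, h⟩ := sparseC ⌈D⌉₊ (Nat.ceil_pos.2 hD)
  refine ⟨c, hc, ?_⟩
  filter_upwards [h] with X hX
  set A := {z : {z : GaussianInt // Irreducible z} | ‖(z.1 : ℂ)‖ ≤ X ∧
      ∃ w, (primeGraph D).Reachable z w ∧ log X ≤ ‖(z.1 : ℂ) - (w.1 : ℂ)‖} with hA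
  have hfin : A.Finite :=
    ((ball_finite X).preimage Subtype.val_injective.injOn).subset fun z hz => hz.1
  have hex : ∀ z : {z : GaussianInt // Irreducible z}, ∃ P : ℕ → GaussianInt, P 0 = z.1 ∧
      (z ∈ A → ∃ n : ℕ, log X ≤ (⌈D⌉₊ : ℕ) * n ∧ Set.InjOn P (Set.Iic n) ∧
        (∀ i ≤ n, Irreducible (P i)) ∧ ∀ i < n, ‖(P (i + 1) : ℂ) - (P i : ℂ)‖ ≤ D) := by
    intro z
    by_cases hz : z ∈ A
    swap
    · exact ⟨fun _ => z.1, rfl, fun h => absurd h hz⟩
    obtain ⟨-, w, hw, hd⟩ := hz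
    obtain ⟨p, hp⟩ := hw.exists_isPath
    have hst : ∀ i < p.length, ‖((p.getVert (i + 1)).1 : ℂ) - ((p.getVert i).1 : ℂ)‖ ≤ D := by
      intro i hi
      rw [norm_sub_rev]
      exact (p.adj_getVert_succ hi).2
    refine ⟨fun i => (p.getVert i).1, by simp, fun _ => ⟨p.length, ?_,
      fun i hi l hl h => hp.getVert_injOn hi hl (Subtype.val_injective h),
      fun i _ => (p.getVert i).2, hst⟩⟩
    have h1 := walk_le (fun i => ((p.getVert i).1 : ℂ)) hst p.length le_rfl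
    simp only [SimpleGraph.Walk.getVert_length, SimpleGraph.Walk.getVert_zero] at h1
    rw [norm_sub_rev] at h1
    have h2 : D * p.length ≤ (⌈D⌉₊ : ℕ) * p.length := by
      gcongr; exact Nat.le_ceil D
    linarith
  choose P hP0 hP using hex
  rw [Set.ncard_eq_toFinset_card A hfin]
  refine hX hfin.toFinset P (fun z _ w _ h => ?_) fun z hz => ?_
  · simp only [hP0] at h
    exact Subtype.val_injective h
  · have hz' := hfin.mem_toFinset.1 hz
    obtain ⟨n, h1, h2, h3, h4⟩ := hP z hz'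
    rw [hP0, GaussianInt.intCast_re, GaussianInt.intCast_im]
    exact ⟨le_trans (Complex.abs_re_le_norm _) hz'.1, le_trans (Complex.abs_im_le_norm _) hz'.1,
      n, h1, h2, h3, fun i hi => (step_le (h4 i hi)).1, fun i hi => (step_le (h4 i hi)).2⟩

theorem far_of_infinite {D : ℝ} (z : {z : GaussianInt // Irreducible z})
    (h : ((primeGraph D).connectedComponentMk z).supp.Infinite) (r : ℝ) :
    ∃ w, (primeGraph D).Reachable z w ∧ r ≤ ‖(z.1 : ℂ) - (w.1 : ℂ)‖ := by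
  by_contra hc
  push Not at hc
  refine h (((ball_finite (‖(z.1 : ℂ)‖ + r)).preimage Subtype.val_injective.injOn).subset
    fun w hw => ?_)
  have h1 : (primeGraph D).Reachable z w :=
    (SimpleGraph.ConnectedComponent.exact ((SimpleGraph.ConnectedComponent.mem_supp_iff _ _).1 hw)).symm
  have h2 := hc w h1
  have h3 := norm_le_norm_add_norm_sub' (w.1 : ℂ) (z.1 : ℂ)
  rw [norm_sub_rev] at h3
  show ‖(w.1 : ℂ)‖ ≤ ‖(z.1 : ℂ)‖ + r
  linarith

theorem partD {D : ℝ} (hD : 0 < D) : ∃ c : ℝ, 0 < c ∧ ∀ᶠ X : ℝ in atTop,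
    (({z : {z : GaussianInt // Irreducible z} | ‖(z.1 : ℂ)‖ ≤ X ∧
      ((primeGraph D).connectedComponentMk z).supp.Infinite}.ncard : ℕ) : ℝ) ≤
      X ^ 2 * exp (-(c * log X / log (log X))) := by
  obtain ⟨c, hc, h⟩ := partC hD
  refine ⟨c, hc, ?_⟩
  filter_upwards [h] with X hX
  refine le_trans (Nat.cast_le.2 (Set.ncard_le_ncard (fun z hz => ?_) ?_)) hX
  · exact ⟨hz.1, far_of_infinite z hz.2 _⟩
  · exact ((ball_finite X).preimage Subtype.val_injective.injOn).subset fun z hz => hz.1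

end Vale.Agent.P015B
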