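import Mathlib
import Vale.Agent.Lib.Sieve.Mertens

namespace Vale.Agent.P015B

open Finset Real Filter ArithmeticFunction.vonMangoldt

/-- two-sided bound for the Dirichlet series of `Λ` on the class `1 mod 4` -/
theorem ser_bound : ∃ C : ℝ, 0 ≤ C ∧ ∀ x : ℝ, x ∈ Set.Ioc (1 : ℝ) 2 →
    |∑' n, residueClass (1 : ZMod 4) n / (n : ℝ) ^ x - 1 / (2 * (x - 1))| ≤ C := by
  have ha : IsUnit (1 : ZMod 4) := isUnit_one
  have H {x : ℝ} (hx : 1 < x) :
      ∑' n, residueClass (1 : ZMod 4) n / (n : ℝ) ^ x =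
        (LFunctionResidueClassAux (1 : ZMod 4) x).re + ((4 : ℕ).totient : ℝ)⁻¹ / (x - 1) := by
    refine Complex.ofReal_injective ?_
    simp only [Complex.ofReal_tsum, Complex.ofReal_div, Complex.ofReal_cpow (Nat.cast_nonneg _),
      Complex.ofReal_natCast, Complex.ofReal_add, Complex.ofReal_inv, Complex.ofReal_sub,
      Complex.ofReal_one]
    simp_rw [← LFunctionResidueClassAux_real ha hx,
      eqOn_LFunctionResidueClassAux ha <| Set.mem_ofPred.mpr (Complex.ofReal_re x ▸ hx),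
      sub_add_cancel, LSeries, LSeries.term]
    refine tsum_congr fun n ↦ ?_
    split_ifs with hn
    · simp only [hn, residueClass_apply_zero, Complex.ofReal_zero, zero_div]
    · rfl
  have hc : ContinuousOn (fun x : ℝ ↦ (LFunctionResidueClassAux (1 : ZMod 4) x).re)
      (Set.Icc 1 2) :=
    Complex.continuous_re.continuousOn.comp (t := Set.univ)
      (continuousOn_LFunctionResidueClassAux (1 : ZMod 4))
      (fun ⦃x⦄ a ↦ trivial) |>.comp Complex.continuous_ofReal.continuousOn fun x hx ↦ by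
        simpa only [Set.mem_ofPred_eq, Complex.ofReal_re] using hx.1
  obtain ⟨C, hC⟩ := isCompact_Icc.exists_bound_of_continuousOn hc
  refine ⟨|C|, abs_nonneg C, fun x hx => ?_⟩
  have h1 := hC x (Set.mem_Icc_of_Ioc hx)
  have h4 : (4 : ℕ).totient = 2 := by decide
  have hx1 : x - 1 ≠ 0 := by linarith [hx.1]
  have h2 : ((4 : ℕ).totient : ℝ)⁻¹ / (x - 1) = 1 / (2 * (x - 1)) := by
    rw [h4]; push_cast; field_simp
  rw [H hx.1, h2, add_sub_cancel_right]
  exact le_trans h1 (le_abs_self C)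

theorem ser_summable {x : ℝ} (hx : 1 < x) :
    Summable fun n : ℕ => residueClass (1 : ZMod 4) n / (n : ℝ) ^ x :=
  LSeries.summable_real_of_abscissaOfAbsConv_lt <|
    (abscissaOfAbsConv_residueClass_le_one (1 : ZMod 4)).trans_lt <| mod_cast hx

theorem tele (u : ℝ) (J : ℕ) :
    ∑ j ∈ range J, 2 ^ j * u * exp (-(2 ^ j * u)) ≤
      2 * exp (-(u / 2)) - 2 * exp (-(2 ^ J * u / 2)) := by
  induction J with
  | zero => simp
  | succ J ih =>
    rw [sum_range_succ]
    set v : ℝ := 2 ^ J * u with hv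
    have h1 : (2 : ℝ) ^ (J + 1) * u / 2 = v := by rw [hv]; ring
    rw [h1]
    have h2 : exp (-(v / 2)) = exp (v / 2) * exp (-v) := by
      rw [← Real.exp_add]; congr 1; ring
    have h3 := Real.add_one_le_exp (v / 2)
    have h4 := Real.exp_pos (-v)
    nlinarith

theorem res_prime {p : ℕ} (hp : p.Prime) :
    residueClass (1 : ZMod 4) p = if p % 4 = 1 then log (p : ℝ) else 0 := by
  have h : ((p : ZMod 4) = 1) ↔ p % 4 = 1 := by
    have : ((p : ZMod 4) = ((1 : ℕ) : ZMod 4)) ↔ p % 4 = 1 % 4 := ZMod.natCast_eq_natCast_iff' p 1 4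
    simpa using this
  by_cases h1 : p % 4 = 1
  · rw [if_pos h1, residueClass, Set.indicator_of_mem (by exact h.2 h1),
      ArithmeticFunction.vonMangoldt_apply_prime hp]
  · rw [if_neg h1, residueClass, Set.indicator_of_notMem (by exact fun h2 => h1 (h.1 h2))]

/-- a weighted family of primes `≡ 1 mod 4` beyond `y` with large mass and small log-moment -/
theorem primes_pack (S : ℝ) : ∃ C : ℝ, 0 < C ∧ ∀ y : ℕ, 1 ≤ y → ∃ (T : Finset ℕ) (v : ℕ → ℝ),
    (∀ p ∈ T, p.Prime ∧ p % 4 = 1 ∧ y < p ∧ 0 ≤ v p ∧ v p ≤ 1 / p) ∧ S ≤ ∑ p ∈ T, v p ∧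
      ∑ p ∈ T, log p * v p ≤ C * (1 + log y) := by
  obtain ⟨C, hC0, hC⟩ := ser_bound
  obtain ⟨J, hJ⟩ := exists_nat_ge (4 * S + 2)
  have hnp := summable_residueClass_non_primes_div (1 : ZMod 4)
  set np : ℕ → ℝ := fun n => (if n.Prime then 0 else residueClass (1 : ZMod 4) n) / n with hnpd
  have hnp0 : ∀ n, 0 ≤ np n := by
    intro n
    refine div_nonneg ?_ (Nat.cast_nonneg _)
    split_ifs
    · exact le_rfl
    · exact residueClass_nonneg _ n
  set C2 : ℝ := ∑' n, np n with hC2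
  have hC20 : 0 ≤ C2 := tsum_nonneg hnp0
  have hl4 : 0 ≤ log (4 : ℝ) := Real.log_nonneg (by norm_num)
  set C1 : ℝ := C + 1 + C2 + log 4 with hC1
  have hC11 : 1 ≤ C1 := by linarith
  refine ⟨2 ^ J * C1 + C, by positivity, fun y hy => ?_⟩
  have hly : 0 ≤ log (y : ℝ) := Real.log_natCast_nonneg y
  set A : ℝ := C1 + log y with hA
  have hA1 : 1 ≤ A := by linarith
  set ε : ℝ := 1 / (2 ^ J * A) with hε
  have hε0 : 0 < ε := by positivity
  have hJε : 2 ^ J * ε * A = 1 := by rw [hε]; field_simp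
  have hjε : ∀ j ≤ J, (2 : ℝ) ^ j * ε ≤ 1 := by
    intro j hj
    have h1 : (2 : ℝ) ^ j ≤ 2 ^ J := pow_le_pow_right₀ (by norm_num) hj
    have h2 : (0 : ℝ) < 2 ^ J * ε := by positivity
    nlinarith
  have hev : ∀ᶠ N : ℕ in atTop, ∀ j ∈ range J, 1 / (2 * (2 ^ j * ε)) - C - 1 ≤
      ∑ n ∈ range N, residueClass (1 : ZMod 4) n / (n : ℝ) ^ (1 + 2 ^ j * ε) := by
    rw [Filter.eventually_all_finset]
    intro j hj
    have hp : (0 : ℝ) < 2 ^ j * ε := by positivity
    have h1 := hC (1 + 2 ^ j * ε) ⟨by linarith, by linarith [hjε j (mem_range.1 hj).le]⟩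
    rw [add_sub_cancel_left] at h1
    have h2 := (ser_summable (x := 1 + 2 ^ j * ε) (by linarith)).hasSum.tendsto_sum_nat
    refine h2.eventually (eventually_ge_nhds ?_)
    linarith [(abs_le.1 h1).1]
  obtain ⟨N, hN⟩ := hev.exists
  set T : Finset ℕ := (range N).filter fun p => p.Prime ∧ p % 4 = 1 ∧ y < p with hT
  set v : ℕ → ℝ := fun p => 1 / (p : ℝ) ^ (1 + ε / 2) with hv
  set sm : ℕ → ℝ := fun n => if n.Prime ∧ n ≤ y then log n / n else 0 with hsm
  have hsum : ∑ j ∈ range J, (2 : ℝ) ^ j * ε ≤ 2 ^ J * ε := by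
    rw [← sum_mul]
    refine mul_le_mul_of_nonneg_right ?_ hε0.le
    rw [geom_sum_eq (by norm_num)]
    norm_num
  have hpt : ∀ n : ℕ, ∑ j ∈ range J, 2 ^ j * ε *
      (residueClass (1 : ZMod 4) n / (n : ℝ) ^ (1 + 2 ^ j * ε)) ≤
      2 * (if n.Prime ∧ n % 4 = 1 ∧ y < n then v n else 0) + 2 ^ J * ε * (np n + sm n) := by
    intro n
    have hsm0 : 0 ≤ sm n := by
      simp only [hsm]
      split_ifs
      · exact div_nonneg (Real.log_natCast_nonneg n) (Nat.cast_nonneg n)
      · exact le_rfl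
    by_cases hg : n.Prime ∧ n % 4 = 1 ∧ y < n
    · rw [if_pos hg, res_prime hg.1, if_pos hg.2.1]
      have hn0 : (0 : ℝ) < n := by exact_mod_cast hg.1.pos
      have h1 : ∀ t : ℝ, 1 / (n : ℝ) ^ (1 + t) = exp (-(t * log n)) / n := by
        intro t
        rw [Real.rpow_add hn0, Real.rpow_one, Real.rpow_def_of_pos hn0, Real.exp_neg, mul_comm t]
        field_simp
      have h2 := tele (ε * log n) J
      have h3 : ∑ j ∈ range J, 2 ^ j * ε * (log (n : ℝ) / (n : ℝ) ^ (1 + 2 ^ j * ε)) =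
          (∑ j ∈ range J, 2 ^ j * (ε * log n) * exp (-(2 ^ j * (ε * log n)))) / n := by
        rw [sum_div]
        refine sum_congr rfl fun j _ => ?_
        rw [div_eq_mul_one_div (log (n : ℝ)), h1, mul_assoc ((2 : ℝ) ^ j) ε (log n)]
        ring
      have h4 : v n = exp (-(ε * log n / 2)) / n := by
        simp only [hv]
        rw [h1]
        congr 3
        ring
      rw [h3, h4]
      have h5 := Real.exp_pos (-(2 ^ J * (ε * log n) / 2))
      have h6 : 0 ≤ 2 ^ J * ε * (np n + sm n) := by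
        have := hnp0 n
        positivity
      have h7 : (∑ j ∈ range J, 2 ^ j * (ε * log n) * exp (-(2 ^ j * (ε * log n)))) / n ≤
          (2 * exp (-(ε * log n / 2))) / n := div_le_div_of_nonneg_right (by linarith) hn0.le
      rw [mul_div_assoc] at h7
      linarith
    · rw [if_neg hg, mul_zero, zero_add]
      have h1 : residueClass (1 : ZMod 4) n / n ≤ np n + sm n := by
        by_cases hp : n.Prime
        · rw [res_prime hp]
          split_ifs with h4
          · have h5 : n ≤ y := by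
              by_contra h6
              exact hg ⟨hp, h4, not_le.1 h6⟩
            have h6 : sm n = log n / n := by simp only [hsm]; rw [if_pos ⟨hp, h5⟩]
            linarith [hnp0 n]
          · rw [zero_div]; linarith [hnp0 n]
        · have h6 : np n = residueClass (1 : ZMod 4) n / n := by simp only [hnpd]; rw [if_neg hp]
          linarith
      have h2 : ∀ j ∈ range J, 2 ^ j * ε *
          (residueClass (1 : ZMod 4) n / (n : ℝ) ^ (1 + 2 ^ j * ε)) ≤
          2 ^ j * ε * (np n + sm n) := by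
        intro j _
        have hp : (0 : ℝ) < 2 ^ j * ε := by positivity
        refine mul_le_mul_of_nonneg_left (le_trans ?_ h1) hp.le
        rcases Nat.eq_zero_or_pos n with rfl | hn
        · simp
        · have hn1 : (1 : ℝ) ≤ n := by exact_mod_cast hn
          refine div_le_div_of_nonneg_left (residueClass_nonneg _ n) (by linarith) ?_
          calc (n : ℝ) = (n : ℝ) ^ (1 : ℝ) := (Real.rpow_one _).symm
            _ ≤ _ := Real.rpow_le_rpow_of_exponent_le hn1 (by linarith)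
      refine le_trans (sum_le_sum h2) ?_
      rw [← sum_mul]
      exact mul_le_mul_of_nonneg_right hsum (by linarith [hnp0 n])
  refine ⟨T, v, fun p hp => ?_, ?_, ?_⟩
  · obtain ⟨_, h1, h2, h3⟩ := mem_filter.1 hp
    have hp1 : (1 : ℝ) ≤ p := by exact_mod_cast h1.one_le
    refine ⟨h1, h2, h3, by simp only [hv]; positivity, ?_⟩
    refine div_le_div_of_nonneg_left zero_le_one (by linarith) ?_
    calc (p : ℝ) = (p : ℝ) ^ (1 : ℝ) := (Real.rpow_one _).symm
      _ ≤ _ := Real.rpow_le_rpow_of_exponent_le hp1 (by linarith)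
  · have h1 := sum_le_sum fun n (_ : n ∈ range N) => hpt n
    rw [sum_comm, sum_add_distrib, ← mul_sum, ← mul_sum, ← sum_filter, sum_add_distrib] at h1
    have h2 : ∑ n ∈ range N, np n ≤ C2 := hnp.sum_le_tsum _ fun n _ => hnp0 n
    have h3 : ∑ n ∈ range N, sm n ≤ log y + log 4 := by
      refine le_trans ?_ (Vale.Agent.Sieve.sum_log_div_le hy)
      simp only [hsm]
      rw [← sum_filter]
      refine sum_le_sum_of_subset_of_nonneg (fun p hp => ?_) fun p _ _ =>
        div_nonneg (Real.log_natCast_nonneg p) (Nat.cast_nonneg p)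
      obtain ⟨_, h4, h5⟩ := mem_filter.1 hp
      exact Nat.mem_primesLE.2 ⟨h5, h4⟩
    have h4 : ∑ j ∈ range J, (1 / 2 - 2 ^ j * ε * (C + 1)) ≤ ∑ j ∈ range J, ∑ n ∈ range N,
        2 ^ j * ε * (residueClass (1 : ZMod 4) n / (n : ℝ) ^ (1 + 2 ^ j * ε)) := by
      refine sum_le_sum fun j hj => ?_
      rw [← mul_sum]
      have hp : (0 : ℝ) < 2 ^ j * ε := by positivity
      have h5 := mul_le_mul_of_nonneg_left (hN j hj) hp.le
      have h6 : 2 ^ j * ε * (1 / (2 * (2 ^ j * ε)) - C - 1) = 1 / 2 - 2 ^ j * ε * (C + 1) := by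
        field_simp
        ring
      linarith
    rw [sum_sub_distrib, ← sum_mul, sum_const, card_range, nsmul_eq_mul] at h4
    have h5 := mul_le_mul_of_nonneg_right hsum (by linarith : 0 ≤ C + 1)
    have hp : (0 : ℝ) < 2 ^ J * ε := by positivity
    have h6 := mul_le_mul_of_nonneg_left (add_le_add h2 h3) hp.le
    have h7 : 2 ^ J * ε * (C + 1) + 2 ^ J * ε * (C2 + (log y + log 4)) = 1 := by
      have h8 : A = C + 1 + (C2 + (log y + log 4)) := by rw [hA, hC1]; ring
      rw [← mul_add, ← h8, hJε]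
    have h8 : ∑ p ∈ T, v p = ∑ p ∈ (range N).filter fun p => p.Prime ∧ p % 4 = 1 ∧ y < p, v p := rfl
    rw [h8]
    linarith
  · have hε1 : ε ≤ 1 := by simpa using hjε 0 (Nat.zero_le J)
    have h1 := hC (1 + ε / 2) ⟨by linarith, by linarith⟩
    have h2 := (ser_summable (x := 1 + ε / 2) (by linarith)).sum_le_tsum T fun n _ =>
      div_nonneg (residueClass_nonneg _ n) (by positivity)
    have h3 : ∑ p ∈ T, log p * v p =
        ∑ p ∈ T, residueClass (1 : ZMod 4) p / (p : ℝ) ^ (1 + ε / 2) := by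
      refine sum_congr rfl fun p hp => ?_
      obtain ⟨_, h4, h5, _⟩ := mem_filter.1 hp
      rw [res_prime h4, if_pos h5]
      simp only [hv]
      ring
    have h4 : 1 / (2 * (1 + ε / 2 - 1)) = 2 ^ J * A := by
      rw [hε]; field_simp; ring
    rw [h4] at h1
    have h5 : (0 : ℝ) < 2 ^ J := by positivity
    have h6 : 2 ^ J * A ≤ 2 ^ J * (C1 * (1 + log y)) := by
      refine mul_le_mul_of_nonneg_left ?_ h5.le
      rw [hA]; nlinarith
    have h7 := (abs_le.1 h1).2
    nlinarith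

end Vale.Agent.P015B
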