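import Vale.Agent.P015B.Core
import Vale.Agent.P015B.Primes

namespace Vale.Agent.P015B

open Finset Real Filter

theorem params (D : ℕ) (hD : 1 ≤ D) {C : ℝ} (hC : 0 < C) : ∃ c : ℝ, 0 < c ∧ ∀ K : ℕ,
    ∀ᶠ X : ℝ in atTop, ∃ k R : ℕ, K ≤ k ∧ c * log X / log (log X) ≤ k ∧ (D : ℝ) * k ≤ log X ∧
      (k : ℝ) ≤ log R ∧ (R : ℝ) ^ 8 ≤ X ∧
      2 * k * (C * (1 + log ((2 * (D * k) ^ 2 : ℕ) : ℝ))) ≤ log R := by
  set c : ℝ := 1 / (144 * (C + 1)) with hc
  have hc0 : 0 < c := by positivity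
  have hcC : 144 * c * (C + 1) = 1 := by rw [hc]; field_simp
  have hc1 : 144 * c ≤ 1 := by nlinarith
  refine ⟨c, hc0, fun K => ?_⟩
  have hD0 : (1 : ℝ) ≤ D := by exact_mod_cast hD
  have e1 : ∀ᶠ l : ℝ in atTop, (K + 1 : ℝ) * log l ≤ c * l := by
    have h := Real.isLittleO_log_id_atTop.bound (c := c / (K + 1)) (by positivity)
    filter_upwards [h, eventually_ge_atTop (1 : ℝ)] with l h1 h2
    rw [Real.norm_eq_abs, Real.norm_eq_abs, id, abs_of_nonneg (Real.log_nonneg h2),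
      abs_of_nonneg (by linarith : 0 ≤ l), div_mul_eq_mul_div, le_div_iff₀ (by positivity)] at h1
    linarith
  have e2 : ∀ᶠ l : ℝ in atTop, max (D : ℝ) (log (2 * D ^ 2)) ≤ log l :=
    Real.tendsto_log_atTop.eventually (eventually_ge_atTop _)
  have e3 : ∀ᶠ l : ℝ in atTop, (72 : ℝ) ≤ l := eventually_ge_atTop _
  filter_upwards [Real.tendsto_log_atTop.eventually (e1.and (e2.and e3)),
    eventually_ge_atTop (1 : ℝ)] with X ⟨h1, h2, h3⟩ hX
  set l : ℝ := log X with hl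
  have hm1 : (D : ℝ) ≤ log l := le_trans (le_max_left _ _) h2
  have hm2 : log (2 * (D : ℝ) ^ 2) ≤ log l := le_trans (le_max_right _ _) h2
  have hll : 1 ≤ log l := by linarith
  have hx : (K + 1 : ℝ) ≤ c * l / log l := by rw [le_div_iff₀ (by linarith)]; exact h1
  have hK0 : (0 : ℝ) ≤ K := Nat.cast_nonneg K
  set k : ℕ := ⌈c * l / log l⌉₊ with hk
  have hk1 : c * l / log l ≤ k := Nat.le_ceil _
  have hk2 : (k : ℝ) ≤ 2 * (c * l / log l) := by
    have := (Nat.ceil_lt_add_one (by linarith : 0 ≤ c * l / log l)).le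
    linarith
  have hk3 : (k : ℝ) * log l ≤ 2 * c * l := by
    have h4 := mul_le_mul_of_nonneg_right hk2 (by linarith : 0 ≤ log l)
    have h5 : 2 * (c * l / log l) * log l = 2 * c * l := by field_simp
    linarith
  have hk0 : (1 : ℝ) ≤ k := by linarith
  have hk4 : (k : ℝ) ≤ l / 72 := by nlinarith
  set x : ℝ := X ^ (1 / 8 : ℝ) with hxd
  have hx1 : 1 ≤ x := Real.one_le_rpow hX (by norm_num)
  have hx8 : x ^ 8 = X := by
    rw [hxd, ← Real.rpow_natCast, ← Real.rpow_mul (by linarith)]; norm_num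
  have hlx : log x = l / 8 := by rw [hxd, Real.log_rpow (by linarith)]; ring
  set R : ℕ := ⌊x⌋₊ with hR
  have hR1 : (R : ℝ) ≤ x := Nat.floor_le (by linarith)
  have hR2 : x / 2 ≤ R := by
    have h4 : x < R + 1 := Nat.lt_floor_add_one x
    have h5 : (1 : ℝ) ≤ R := by exact_mod_cast Nat.le_floor (by simpa using hx1)
    linarith
  have hR3 : l / 9 ≤ log R := by
    have h4 := Real.log_le_log (by linarith) hR2
    rw [Real.log_div (by linarith) (by norm_num), hlx] at h4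
    have h5 : log (2 : ℝ) ≤ 1 := by linarith [Real.log_two_lt_d9]
    linarith
  refine ⟨k, R, by exact_mod_cast (by linarith : (K : ℝ) ≤ k), hk1, by nlinarith, by linarith,
    by rw [← hx8]; gcongr, ?_⟩
  have h4 : log ((2 * (D * k) ^ 2 : ℕ) : ℝ) ≤ 3 * log l := by
    have h5 : ((2 * (D * k) ^ 2 : ℕ) : ℝ) = 2 * (D : ℝ) ^ 2 * (k : ℝ) ^ 2 := by push_cast; ring
    rw [h5, Real.log_mul (by positivity) (by positivity), Real.log_pow]
    have h6 : log (k : ℝ) ≤ log l := Real.log_le_log (by linarith) (by linarith)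
    push_cast
    linarith
  have h5 : 2 * k * (C * (1 + log ((2 * (D * k) ^ 2 : ℕ) : ℝ))) ≤ 2 * k * (C * (4 * log l)) := by
    gcongr
    linarith
  have h6 : 8 * C * (k * log l) ≤ 8 * C * (2 * c * l) := by gcongr
  have h7 : 144 * c * C ≤ 1 := by nlinarith
  have h8 : 144 * c * C * l ≤ 1 * l := by gcongr
  linarith

/-- sieve data at scale `X` -/
theorem data (D : ℕ) (hD : 1 ≤ D) : ∃ c : ℝ, 0 < c ∧ ∀ K : ℕ,
    ∀ᶠ X : ℝ in atTop, ∃ (k R : ℕ) (S : ℝ) (T : Finset ℕ) (v : ℕ → ℝ), K ≤ k ∧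
      c * log X / log (log X) ≤ k ∧ (D : ℝ) * k ≤ log X ∧ exp k ≤ R ∧ k ≤ R ∧ (R : ℝ) ^ 8 ≤ X ∧
      exp (k * S / 2) = exp k * exp k * ((2 * D + 1) ^ 2) ^ k ∧
      (∀ p ∈ T, p.Prime ∧ p % 4 = 1 ∧ 2 * (D * k) ^ 2 < p ∧ 0 ≤ v p ∧ v p ≤ 1 / p) ∧
      S ≤ ∑ p ∈ T, v p ∧ 2 * k * ∑ p ∈ T, log p * v p ≤ log R := by
  set S : ℝ := 4 + 2 * log ((2 * D + 1) ^ 2) with hS
  obtain ⟨C, hC, hP⟩ := primes_pack S
  obtain ⟨c, hc, hp⟩ := params D hD hC
  refine ⟨c, hc, fun K => ?_⟩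
  filter_upwards [hp (K + 1)] with X ⟨k, R, h1, h2, h3, h4, h5, h6⟩
  have hk : 1 ≤ k := by omega
  obtain ⟨T, v, h7, h8, h9⟩ := hP (2 * (D * k) ^ 2) (Nat.succ_le_of_lt (by positivity))
  have hk0 : (1 : ℝ) ≤ k := by exact_mod_cast hk
  have hR0 : (0 : ℝ) < R := by
    rcases Nat.eq_zero_or_pos R with rfl | h
    · simp at h4; linarith
    · exact_mod_cast h
  have hE : exp k ≤ R := by rwa [← Real.le_log_iff_exp_le hR0]
  refine ⟨k, R, S, T, v, by omega, h2, h3, hE, ?_, h5, ?_, h7, h8, le_trans (by gcongr) h6⟩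
  · have := Real.add_one_le_exp (k : ℝ)
    exact_mod_cast (by linarith : (k : ℝ) ≤ R)
  · have h10 : k * S / 2 = k + k + k * log ((2 * D + 1) ^ 2) := by rw [hS]; ring
    rw [h10, Real.exp_add, Real.exp_add, Real.exp_nat_mul, Real.exp_log (by positivity)]

/-- no long path in a thin strip, slope form -/
theorem stripA (D : ℕ) (hD : 1 ≤ D) : ∃ c : ℝ, 0 < c ∧ ∀ᶠ X : ℝ in atTop, ∀ n : ℕ, X ≤ n →
    ∀ z : ℕ → GaussianInt, Set.InjOn z (Set.Iic n) → (∀ j ≤ n, Irreducible (z j)) →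
    (∀ j < n, |(z (j + 1)).re - (z j).re| ≤ D) → (∀ j < n, |(z (j + 1)).im - (z j).im| ≤ D) →
    ∀ θ s : ℝ, ¬ ∀ j ≤ n, |((z j).im : ℝ) - θ * (z j).re - s| ≤
      2 * exp (c * log X / log (log X)) := by
  obtain ⟨c, hc, h⟩ := data D hD
  refine ⟨c, hc, ?_⟩
  filter_upwards [h (160 * D * (2 * D + 11) + 19)] with X
    ⟨k, R, S, T, v, h1, h2, _, _, h5, h6, h7, h8, h9, h10⟩ n hn z hinj hirr hre him θ s hW
  have hR : 19 ≤ R := by omega
  have h11 : R ^ 8 ≤ n := by exact_mod_cast le_trans h6 hn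
  have h12 : (18 * R ^ 3) * (18 * R ^ 3) + k ≤ n := by
    have a1 : 19 * 19 ≤ R * R := Nat.mul_le_mul hR hR
    have a2 : R ≤ R ^ 6 := Nat.le_self_pow (by norm_num) R
    have a3 : (19 * 19) * R ^ 6 ≤ (R * R) * R ^ 6 := Nat.mul_le_mul_right _ a1
    have a4 : (R * R) * R ^ 6 = R ^ 8 := by ring
    have a5 : (18 * R ^ 3) * (18 * R ^ 3) = 324 * R ^ 6 := by ring
    omega
  have h13 := core (Q := 18 * R ^ 3) T v h8 h9 h10 (by omega) hD
    (by have : R ^ 2 ≤ R ^ 3 := Nat.pow_le_pow_right (by omega) (by norm_num)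
        omega)
    (by have a1 : (2 * R + 1) ^ 2 ≤ (3 * R) ^ 2 := Nat.pow_le_pow_left (by omega) 2
        calc 2 * (k * (2 * R + 1) ^ 2) ≤ 2 * (R * (3 * R) ^ 2) := by gcongr
          _ = 18 * R ^ 3 := by ring)
    h12 z hinj hirr hre him θ s (2 * exp k)
    (fun j hj => le_trans (hW j hj) (by gcongr))
  rw [h7] at h13
  have hP : (0 : ℝ) < ((2 * D + 1) ^ 2) ^ k := by positivity
  have h14 := le_of_mul_le_mul_right h13 hP
  have h15 := Real.add_one_le_exp (k : ℝ)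
  have h16 : (160 * D * (2 * D + 11) + 19 : ℝ) ≤ k := by exact_mod_cast h1
  have hD0 : (1 : ℝ) ≤ D := by exact_mod_cast hD
  have h17 : (1 : ℝ) ≤ exp k := Real.one_le_exp (Nat.cast_nonneg k)
  have h18 : 160 * D * (4 * (2 * exp k) + 2 * D + 3) ≤ 160 * D * (2 * D + 11) * exp k := by
    have : (2 * D + 3 : ℝ) * 1 ≤ (2 * D + 3) * exp k := by gcongr
    have h19 : (4 * (2 * exp k) + 2 * D + 3 : ℝ) ≤ (2 * D + 11) * exp k := by linarith
    calc _ ≤ 160 * D * ((2 * D + 11) * exp k) := by gcongr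
      _ = _ := by ring
  nlinarith

/-- few starting points of long paths -/
theorem sparseC (D : ℕ) (hD : 1 ≤ D) : ∃ c : ℝ, 0 < c ∧ ∀ᶠ X : ℝ in atTop,
    ∀ {ι : Type} (G : Finset ι) (z : ι → ℕ → GaussianInt), Set.InjOn (fun j => z j 0) G →
    (∀ j ∈ G, |((z j 0).re : ℝ)| ≤ X ∧ |((z j 0).im : ℝ)| ≤ X ∧ ∃ n : ℕ, log X ≤ D * n ∧
      Set.InjOn (z j) (Set.Iic n) ∧ (∀ i ≤ n, Irreducible (z j i)) ∧
      (∀ i < n, |(z j (i + 1)).re - (z j i).re| ≤ D) ∧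
      ∀ i < n, |(z j (i + 1)).im - (z j i).im| ≤ D) →
    (G.card : ℝ) ≤ X ^ 2 * exp (-(c * log X / log (log X))) := by
  classical
  obtain ⟨c, hc, h⟩ := data D hD
  refine ⟨c, hc, ?_⟩
  filter_upwards [h (D + 960)] with X
    ⟨k, R, S, T, v, h1, h2, h3, h4, h5, h6, h7, h8, h9, h10⟩ ι G z hinj hG
  have hD0 : (1 : ℝ) ≤ D := by exact_mod_cast hD
  have hR : 960 ≤ R := by omega
  have hRr : (960 : ℝ) ≤ R := by exact_mod_cast hR
  have hR8 : (R : ℝ) ^ 2 ≤ (R : ℝ) ^ 8 := pow_le_pow_right₀ (by linarith) (by norm_num)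
  have hX1 : 1 ≤ X := by nlinarith
  set Y : ℕ := ⌊X⌋₊ with hY
  have hYX : (Y : ℝ) ≤ X := Nat.floor_le (by linarith)
  have hRY : R ^ 2 ≤ Y := Nat.le_floor (by push_cast; linarith)
  have hfl : ∀ m : ℤ, |(m : ℝ)| ≤ X → |m| ≤ Y := by
    intro m hm
    have a1 : ((m.natAbs : ℕ) : ℝ) ≤ X := by rw [Nat.cast_natAbs]; push_cast; exact hm
    have a2 : m.natAbs ≤ Y := Nat.le_floor a1
    rw [Int.abs_eq_natAbs]
    exact_mod_cast a2
  have hG' : ∀ j ∈ G, Set.InjOn (z j) (Set.Iic k) ∧ (∀ i < k, Irreducible (z j i)) ∧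
      (∀ i < k, |(z j (i + 1)).re - (z j i).re| ≤ D) ∧
      ∀ i < k, |(z j (i + 1)).im - (z j i).im| ≤ D := by
    intro j hj
    obtain ⟨-, -, n, a1, a2, a3, a4, a5⟩ := hG j hj
    have a6 : k ≤ n := by
      have : (D : ℝ) * k ≤ D * n := le_trans h3 a1
      exact_mod_cast le_of_mul_le_mul_left this (by linarith)
    exact ⟨a2.mono (Set.Iic_subset_Iic.2 a6), fun i hi => a3 i (by omega),
      fun i hi => a4 i (by omega), fun i hi => a5 i (by omega)⟩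
  set G1 := G.filter fun j => ∀ i < k, (R : ℤ) ^ 2 < (z j i).norm with hG1
  have c1 := count (N := 2 * Y) (q := 1) (a := 0) T v h8 h9 h10 (by omega) hD (by omega) le_rfl
    (by simpa using isCoprime_one_left) G1 z (hinj.mono (coe_subset.2 (filter_subset _ _)))
    (fun j hj => by
      obtain ⟨a1, a2⟩ := mem_filter.1 hj
      obtain ⟨b1, b2, b3, b4⟩ := hG' j a1
      exact ⟨b1, fun i hi => ⟨b2 i hi, a2 i hi⟩, b3, b4⟩)
    (fun j hj l hl => by
      have a1 := hfl _ (hG j (mem_filter.1 hj).1).1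
      have a2 := hfl _ (hG l (mem_filter.1 hl).1).1
      have a3 := abs_sub (z j 0).re (z l 0).re
      push_cast
      linarith)
    0 Y (fun j hj => by simpa using hfl _ (hG j (mem_filter.1 hj).1).2.1)
  rw [h7] at c1
  have hP : (0 : ℝ) < ((2 * D + 1) ^ 2) ^ k := by positivity
  have hE := Real.exp_pos (k : ℝ)
  have c2 : (G1.card : ℝ) * (exp k * exp k) ≤ 480 * X ^ 2 := by
    refine le_of_mul_le_mul_right ?_ hP
    have a1 : (2 * (Y : ℝ) + 1) * ((2 * D + 1) ^ 2) ^ k * (80 * ((2 * Y : ℕ) : ℝ)) ≤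
        (3 * X) * ((2 * D + 1) ^ 2) ^ k * (80 * (2 * X)) := by
      push_cast
      gcongr
      linarith
    linarith
  have c3 : (G1.card : ℝ) * exp k ≤ X ^ 2 / 2 := by
    have a1 := Real.add_one_le_exp (k : ℝ)
    have a2 : (D + 960 : ℝ) ≤ k := by exact_mod_cast h1
    have a3 : (G1.card : ℝ) * exp k * 960 ≤ (G1.card : ℝ) * exp k * exp k := by
      gcongr
      linarith
    linarith
  have c4 : (G.filter fun j => ¬ ∀ i < k, (R : ℤ) ^ 2 < (z j i).norm).card ≤ (9 * (R * R)) ^ 2 := by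
    have a1 := small_card G (fun j => z j 0) hinj (4 * (R * R))
    refine le_trans (card_le_card fun j hj => ?_) (le_trans a1 (Nat.pow_le_pow_left (by nlinarith) 2))
    obtain ⟨a2, a3⟩ := mem_filter.1 hj
    push Not at a3
    obtain ⟨i, hi, a4⟩ := a3
    obtain ⟨-, -, b3, b4⟩ := hG' j a2
    have d1 := drift' (fun i => (z j i).re) b3 (M := k) (j := 0) (l := i)
      (by omega) (by omega) (by omega) (by omega)
    have d2 := drift' (fun i => (z j i).im) b4 (M := k) (j := 0) (l := i)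
      (by omega) (by omega) (by omega) (by omega)
    rw [norm_eq] at a4
    have hR0 : (0 : ℤ) ≤ R := Int.natCast_nonneg R
    have d3 := abs_le_of_sq_le_sq' (by nlinarith [sq_nonneg (z j i).im] : (z j i).re ^ 2 ≤ (R : ℤ) ^ 2) hR0
    have d4 := abs_le_of_sq_le_sq' (by nlinarith [sq_nonneg (z j i).re] : (z j i).im ^ 2 ≤ (R : ℤ) ^ 2) hR0
    have d5 : (D : ℤ) * k ≤ R * R := by exact_mod_cast Nat.mul_le_mul (by omega) h5
    have d6 : (R : ℤ) ≤ R * R := by exact_mod_cast Nat.le_mul_self R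
    obtain ⟨e1, e2⟩ := abs_le.1 d1
    obtain ⟨e3, e4⟩ := abs_le.1 d2
    have e5 : (z j 0).re ^ 2 ≤ (2 * (R * R : ℤ)) ^ 2 := sq_le_sq' (by linarith [d3.1]) (by linarith [d3.2])
    have e6 : (z j 0).im ^ 2 ≤ (2 * (R * R : ℤ)) ^ 2 := sq_le_sq' (by linarith [d4.1]) (by linarith [d4.2])
    refine mem_filter.2 ⟨a2, ?_⟩
    rw [norm_eq]
    push_cast
    nlinarith [sq_nonneg (R * R : ℤ)]
  have c5 := card_filter_add_card_filter_not (s := G) (fun j => ∀ i < k, (R : ℤ) ^ 2 < (z j i).norm)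
  have c6 : (G.card : ℝ) ≤ G1.card + (9 * (R * R)) ^ 2 := by
    have : G.card ≤ G1.card + (9 * (R * R)) ^ 2 := by rw [hG1]; omega
    exact_mod_cast this
  have c7 : ((9 : ℝ) * (R * R)) ^ 2 * exp k ≤ X ^ 2 / 2 := by
    have a1 : ((9 : ℝ) * (R * R)) ^ 2 * exp k ≤ (9 * (R * R)) ^ 2 * R := by gcongr
    have a2 : ((R : ℝ) ^ 8) ^ 2 ≤ X ^ 2 := by gcongr
    have a3 : (R : ℝ) ^ 6 ≤ (R : ℝ) ^ 16 := pow_le_pow_right₀ (by linarith) (by norm_num)
    have a4 : 162 * (R : ℝ) ^ 5 ≤ R * R ^ 5 := by gcongr; linarith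
    nlinarith
  have c8 : (G.card : ℝ) * exp k ≤ X ^ 2 := by
    have := mul_le_mul_of_nonneg_right c6 hE.le
    linarith
  have c9 : exp (c * log X / log (log X)) ≤ exp k := Real.exp_le_exp.2 h2
  rw [Real.exp_neg, ← div_eq_mul_inv, le_div_iff₀ (Real.exp_pos _)]
  exact le_trans (by gcongr) c8

end Vale.Agent.P015B
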