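import Vale.Agent.P001.Two

namespace Vale.Agent.P015B

open Finset Real

theorem exp_half_le {h : ℝ} (h0 : 0 ≤ h) (h1 : h ≤ 1) : exp (h / 2) ≤ 1 + h := by
  have h2 := Real.add_one_le_exp (-(h / 2))
  have h3 : exp (h / 2) * exp (-(h / 2)) = 1 := by rw [← Real.exp_add]; simp
  have h4 := Real.exp_pos (h / 2)
  have h5 : exp (h / 2) * (1 - h / 2) ≤ 1 := by nlinarith
  by_contra h6
  push Not at h6
  nlinarith

/-- `k`-dimensional upper bound sieve from the large sieve -/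
theorem sieve {S : ℝ} {y k R N : ℕ} (T : Finset ℕ) (v : ℕ → ℝ)
    (hT : ∀ p ∈ T, p.Prime ∧ y < p ∧ 0 ≤ v p ∧ v p ≤ 1 / p) (hS : S ≤ ∑ p ∈ T, v p)
    (hL : 2 * k * ∑ p ∈ T, log p * v p ≤ log R) (hR : 2 ≤ R) (hk : k ≤ y) (hN : R ^ 2 ≤ N)
    (U : Finset ℕ) (hU : ∀ a ∈ U, a ≤ N) (Ω : ℕ → Finset ℕ)
    (hΩ : ∀ p ∈ T, p ≤ R → (Ω p).card = k ∧ (∀ r ∈ Ω p, r < p) ∧ ∀ a ∈ U, a % p ∉ Ω p) :
    (U.card : ℝ) * exp (k * S / 2) ≤ 40 * N := by
  classical
  have hR1 : (1 : ℝ) < R := by exact_mod_cast (by omega : 1 < R)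
  have hlR : 0 < log (R : ℝ) := Real.log_pos hR1
  have hk0 : (0 : ℝ) ≤ k := Nat.cast_nonneg k
  have hh0 : ∀ p ∈ T, 0 ≤ (k : ℝ) * v p := fun p hp => mul_nonneg hk0 (hT p hp).2.2.1
  have hkp : ∀ p ∈ T, (k : ℝ) < p := fun p hp => by
    exact_mod_cast lt_of_le_of_lt hk (hT p hp).2.1
  have hh1 : ∀ p ∈ T, (k : ℝ) * v p ≤ k / p := fun p hp => by
    rw [div_eq_mul_one_div]
    exact mul_le_mul_of_nonneg_left (hT p hp).2.2.2 hk0
  have hM := Vale.Agent.P001.markov T (fun p => (k : ℝ) * v p) (fun p => log (p : ℝ)) hh0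
    (fun p _ => Real.log_natCast_nonneg p) hlR (by
      have h1 : ∑ p ∈ T, log (p : ℝ) * ((k : ℝ) * v p / (1 + k * v p)) ≤
          ∑ p ∈ T, k * (log p * v p) := by
        refine sum_le_sum fun p hp => ?_
        have h2 : (k : ℝ) * v p / (1 + k * v p) ≤ k * v p :=
          div_le_self (hh0 p hp) (by linarith [hh0 p hp])
        have h3 := mul_le_mul_of_nonneg_left h2 (Real.log_natCast_nonneg p)
        linarith
      rw [← mul_sum] at h1
      linarith)
  set F : Finset (Finset ℕ) :=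
    T.powerset.filter (fun S : Finset ℕ => ∑ p ∈ S, log (p : ℝ) ≤ log R) with hF
  have hFp : ∀ A ∈ F, (∀ p ∈ A, p.Prime) ∧ ∏ p ∈ A, p ≤ R := by
    intro A hA
    obtain ⟨h1, h2⟩ := mem_filter.1 hA
    have h3 : ∀ p ∈ A, p.Prime := fun p hp => (hT p (mem_powerset.1 h1 hp)).1
    refine ⟨h3, ?_⟩
    rw [← Real.log_prod (fun p hp => by exact_mod_cast (h3 p hp).ne_zero)] at h2
    have h4 : (0 : ℝ) < ∏ p ∈ A, (p : ℝ) := prod_pos fun p hp => by exact_mod_cast (h3 p hp).pos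
    have h5 := (Real.log_le_log_iff h4 (by linarith)).1 h2
    rw [← Nat.cast_prod] at h5
    exact Nat.cast_le.1 h5
  have hFR : ∀ A ∈ F, ∀ p ∈ A, p ∈ T ∧ p ≤ R := by
    intro A hA p hp
    refine ⟨mem_powerset.1 (mem_filter.1 hA).1 hp, le_trans ?_ (hFp A hA).2⟩
    exact Nat.le_of_dvd (prod_pos fun q hq => ((hFp A hA).1 q hq).pos) (dvd_prod_of_mem _ hp)
  have hN1 : 1 ≤ N := le_trans (Nat.one_le_pow _ _ (by omega)) hN
  have hls := Vale.Agent.P001.ls U hN1 hN hU Ω F hFp fun A hA p hp =>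
    (hΩ p (hFR A hA p hp).1 (hFR A hA p hp).2).2
  have h1 : ∑ A ∈ F, ∏ p ∈ A, (k : ℝ) * v p ≤
      ∑ A ∈ F, ∏ p ∈ A, ((Ω p).card : ℝ) / (p - (Ω p).card) := by
    refine sum_le_sum fun A hA => prod_le_prod (fun p hp => hh0 p (hFR A hA p hp).1) fun p hp => ?_
    have h2 := hFR A hA p hp
    rw [(hΩ p h2.1 h2.2).1]
    refine le_trans (hh1 p h2.1) ?_
    exact div_le_div_of_nonneg_left hk0 (by linarith [hkp p h2.1]) (by linarith)
  have h2 : exp (k * S / 2) ≤ ∏ p ∈ T, (1 + (k : ℝ) * v p) := by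
    have h3 : exp (k * S / 2) ≤ exp (∑ p ∈ T, (k : ℝ) * v p / 2) := by
      refine Real.exp_le_exp.2 ?_
      rw [← sum_div, ← mul_sum]
      have := mul_le_mul_of_nonneg_left hS hk0
      linarith
    refine le_trans h3 ?_
    rw [Real.exp_sum]
    refine prod_le_prod (fun p _ => (Real.exp_pos _).le) fun p hp => exp_half_le (hh0 p hp) ?_
    refine le_trans (hh1 p hp) ?_
    have h4 := hkp p hp
    exact (div_le_one (by linarith)).2 h4.le
  have hU0 : (0 : ℝ) ≤ U.card := Nat.cast_nonneg _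
  have h3 := mul_le_mul_of_nonneg_left (le_trans hM h1) hU0
  have h4 := mul_le_mul_of_nonneg_left h2 hU0
  linarith

/-- reduction `ℤ[i] → ZMod p` attached to a square root of `-1` -/
def red {p : ℕ} (ι : ZMod p) (h : ι * ι = -1) : GaussianInt →+* ZMod p :=
  Zsqrtd.lift ⟨ι, by simpa using h⟩

theorem red_apply {p : ℕ} (ι : ZMod p) (h : ι * ι = -1) (z : GaussianInt) :
    red ι h z = z.re + z.im * ι := by
  simp [red, Zsqrtd.lift_apply_apply]

theorem dvd_norm_of_red {p : ℕ} (ι : ZMod p) (h : ι * ι = -1) {z : GaussianInt}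
    (hz : red ι h z = 0) : (p : ℤ) ∣ z.norm := by
  rw [← ZMod.intCast_zmod_eq_zero_iff_dvd]
  have h1 : red ι h ((z.norm : ℤ) : GaussianInt) = (z.norm : ZMod p) := map_intCast _ _
  rw [← h1, Zsqrtd.norm_eq_mul_conj, map_mul, hz, zero_mul]

theorem norm_le_of_dvd {p : ℕ} (hp : p.Prime) {z : GaussianInt} (hz : Irreducible z)
    (h : (p : ℤ) ∣ z.norm) : z.norm ≤ (p : ℤ) ^ 2 := by
  have hp0 : (0 : ℤ) < p := by exact_mod_cast hp.pos
  have hnp : ((p : ℤ) : GaussianInt).norm = (p : ℤ) ^ 2 := by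
    rw [Zsqrtd.norm_intCast]; ring
  have key : ∀ w : GaussianInt, w ∣ ((p : ℤ) : GaussianInt) → w.norm ≤ (p : ℤ) ^ 2 := by
    intro w hw
    have h1 : w.norm ∣ ((p : ℤ) : GaussianInt).norm := by
      obtain ⟨c, hc⟩ := hw
      exact ⟨c.norm, by rw [hc, Zsqrtd.norm_mul]⟩
    rw [hnp] at h1
    exact Int.le_of_dvd (by positivity) h1
  have hz' : Irreducible (star z) := by
    have : Irreducible ((starRingAut : RingAut GaussianInt) z) :=
      (MulEquiv.irreducible_iff (starRingAut : RingAut GaussianInt)).2 hz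
    simpa using this
  by_cases h1 : z ∣ ((p : ℤ) : GaussianInt)
  · exact key z h1
  by_cases h2 : star z ∣ ((p : ℤ) : GaussianInt)
  · have := key _ h2
    rwa [Zsqrtd.norm_conj] at this
  exfalso
  have c1 := (hz.coprime_iff_not_dvd).2 h1
  have c2 := (hz'.coprime_iff_not_dvd).2 h2
  have c3 := c1.mul_left c2
  have h3 : ((p : ℤ) : GaussianInt) ∣ z * star z := by
    rw [← Zsqrtd.norm_eq_mul_conj]
    exact Int.cast_dvd_cast _ _ h
  have h4 : IsUnit ((p : ℤ) : GaussianInt) := c3.symm.isUnit_of_dvd h3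
  rw [← Zsqrtd.norm_eq_one_iff' (by norm_num), hnp] at h4
  have h5 : (2 : ℤ) ≤ p := by exact_mod_cast hp.two_le
  nlinarith

/-- for `p ≡ 1 mod 4` and a primitive direction there is a reduction not killing it -/
theorem exists_red {p : ℕ} (hp : p.Prime) (h4 : p % 4 = 1) {w : GaussianInt}
    (hw : IsCoprime w.re w.im) : ∃ (ι : ZMod p) (h : ι * ι = -1), red ι h w ≠ 0 := by
  have := Fact.mk hp
  obtain ⟨ι, hι⟩ := (ZMod.exists_sq_eq_neg_one_iff (p := p)).2 (by omega)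
  have h1 : ι * ι = -1 := hι.symm
  have h2 : (-ι) * (-ι) = -1 := by rw [neg_mul_neg, h1]
  by_contra hc
  push Not at hc
  have a1 := hc ι h1
  have a2 := hc (-ι) h2
  rw [red_apply] at a1 a2
  have h20 : (2 : ZMod p) ≠ 0 := by
    intro h
    have : ((2 : ℕ) : ZMod p) = 0 := by exact_mod_cast h
    rw [ZMod.natCast_eq_zero_iff] at this
    have := Nat.le_of_dvd (by norm_num) this
    have := hp.two_le
    omega
  have b1 : (w.re : ZMod p) = 0 := by
    have : (2 : ZMod p) * w.re = 0 := by linear_combination a1 + a2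
    exact (mul_eq_zero.1 this).resolve_left h20
  have b2 : (w.im : ZMod p) = 0 := by
    linear_combination (-ι) * a1 + ι * b1 + (w.im : ZMod p) * h1
  obtain ⟨a, b, hab⟩ := hw
  have h5 : ((a * w.re + b * w.im : ℤ) : ZMod p) = ((1 : ℤ) : ZMod p) := by rw [hab]
  push_cast at h5
  rw [b1, b2] at h5
  simp at h5

/-- sieve bound for translates of a `k`-point pattern along a primitive direction -/
theorem pattern {S : ℝ} {y k R N : ℕ} (T : Finset ℕ) (v : ℕ → ℝ)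
    (hT : ∀ p ∈ T, p.Prime ∧ p % 4 = 1 ∧ y < p ∧ 0 ≤ v p ∧ v p ≤ 1 / p) (hS : S ≤ ∑ p ∈ T, v p)
    (hL : 2 * k * ∑ p ∈ T, log p * v p ≤ log R) (hR : 2 ≤ R) (hk : k ≤ y) (hN : R ^ 2 ≤ N)
    (U : Finset ℕ) (hU : ∀ a ∈ U, a ≤ N) {w : GaussianInt} (hw : IsCoprime w.re w.im)
    (c : ℕ → GaussianInt)
    (hc : ∀ i < k, ∀ l < k, i ≠ l → c i ≠ c l ∧ (c i - c l).norm ≤ y)
    (hP : ∀ a ∈ U, ∀ i < k, Irreducible (c i + a * w) ∧ (R : ℤ) ^ 2 < (c i + a * w).norm) :
    (U.card : ℝ) * exp (k * S / 2) ≤ 40 * N := by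
  classical
  have hex : ∀ p : ℕ, ∃ Ω : Finset ℕ, p ∈ T → p ≤ R →
      Ω.card = k ∧ (∀ r ∈ Ω, r < p) ∧ ∀ a ∈ U, a % p ∉ Ω := by
    intro p
    by_cases hp : p ∈ T
    swap
    · exact ⟨∅, fun h => absurd h hp⟩
    obtain ⟨h1, h2, h3, _⟩ := hT p hp
    have := Fact.mk h1
    obtain ⟨ι, hι, hw0⟩ := exists_red h1 h2 hw
    refine ⟨(range k).image fun i => (-(red ι hι (c i)) / red ι hι w).val, fun _ hpR => ⟨?_, ?_, ?_⟩⟩
    · rw [card_image_of_injOn, card_range]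
      intro i hi l hl hil
      by_contra hne
      obtain ⟨h4, h5⟩ := hc i (mem_range.1 hi) l (mem_range.1 hl) hne
      have h6 := ZMod.val_injective p hil
      have h7 : red ι hι (c i - c l) = 0 := by
        rw [map_sub]
        have h8 := (div_left_inj' hw0).1 h6
        linear_combination -h8
      have h8 := dvd_norm_of_red ι hι h7
      have h9 : 0 < (c i - c l).norm := GaussianInt.norm_pos.2 (sub_ne_zero.2 h4)
      have h10 := Int.le_of_dvd h9 h8
      have h11 : (y : ℤ) < p := by exact_mod_cast h3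
      omega
    · intro r hr
      obtain ⟨i, _, rfl⟩ := mem_image.1 hr
      exact ZMod.val_lt _
    · intro a ha hr
      obtain ⟨i, hi, h4⟩ := mem_image.1 hr
      have h5 : (a : ZMod p) = -(red ι hι (c i)) / red ι hι w := by
        rw [← ZMod.natCast_mod a p, ← h4, ZMod.natCast_zmod_val]
      have h6 : red ι hι (c i + a * w) = 0 := by
        rw [map_add, map_mul, map_natCast, h5]
        field_simp
        ring
      obtain ⟨h7, h8⟩ := hP a ha i (mem_range.1 hi)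
      have h9 := norm_le_of_dvd h1 h7 (dvd_norm_of_red ι hι h6)
      have h10 : (p : ℤ) ≤ R := by exact_mod_cast hpR
      have h11 : (p : ℤ) ^ 2 ≤ (R : ℤ) ^ 2 := by gcongr
      omega
  choose Ω hΩ using hex
  exact sieve T v (fun p hp => ⟨(hT p hp).1, (hT p hp).2.2⟩) hS hL hR hk hN U hU Ω hΩ

end Vale.Agent.P015B
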